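import Vale.Agent.Lib.P302.I551.Data

namespace Vale.Agent.Lib.P302.I551

open Vale.Agent.Lib.P302

theorem chunk0 : ((pairs.drop 0).take 30).all good = true := by
  decide +kernel

theorem chunk4 : ((pairs.drop 51).take 1).all good = true := by
  decide +kernel

theorem chunk8 : ((pairs.drop 62).take 1).all good = true := by
  decide +kernel

end Vale.Agent.Lib.P302.I551
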