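import Vale.Agent.Lib.P302.I551.Data

namespace Vale.Agent.Lib.P302.I551

open Vale.Agent.Lib.P302

theorem chunk1 : ((pairs.drop 30).take 10).all good = true := by
  decide +kernel

theorem chunk5 : ((pairs.drop 52).take 1).all good = true := by
  decide +kernel

theorem chunk9 : ((pairs.drop 63).take 9).all good = true := by
  decide +kernel

end Vale.Agent.Lib.P302.I551
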