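import Vale.Agent.Lib.P302.I551.Data

namespace Vale.Agent.Lib.P302.I551

open Vale.Agent.Lib.P302

theorem chunk2 : ((pairs.drop 40).take 2).all good = true := by
  decide +kernel

theorem chunk6 : ((pairs.drop 53).take 8).all good = true := by
  decide +kernel

end Vale.Agent.Lib.P302.I551
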