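import Vale.Agent.Lib.P302.GadgetDom

/-! Data of a gap instance: the thirds gadget, the frame, and the list of configurations. -/

namespace Vale.Agent.Lib.P302.I551

open Vale.Agent.Lib.P302

/-- The items of the thirds gadget. -/
def itemsG : List ℕ :=
  [1198931, 1198964, 1199677, 1199728, 1199933, 1199972, 1199982, 1200000, 1200000, 1200001, 1200016, 1200030, 1200046, 1200063, 1200478, 1200514, 1200527, 1200561, 1200563, 1200577, 1200797, 1200797]

/-- The items of the frame. -/
def itemsR : List ℕ :=
  [1710000, 1659000, 1566000, 1554000, 1533000, 1494000, 1443000, 1056000, 1047000, 1038000, 1032000, 1026000, 1020000, 1017000, 1005000, 957000, 948000, 945000, 903000]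

/-- The configurations to be refuted. -/
def pairs : List (ℕ × ℕ) := cfgPairs 5 itemsG.length

/-- The configuration `t` is refuted. -/
def good (t : ℕ × ℕ) : Bool := cfgOK 451490 20 3600000 1198931 14 itemsG.length (itemsR ++ [451490]) t

end Vale.Agent.Lib.P302.I551
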